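import Vale.Agent.P031.Main
import Vale.Agent.P031.Asm.Lower
import Vale.Agent.P031.Asm.Pairs

/-!
# P031: the question of Erdős and Hall

The number of distinct totient values is regularly varying of index one:
`V(cx)/V(x) → c` for every fixed `c > 1`.
-/

open Filter Topology

namespace Vale.Agent.Results.P031.RegularVariation

theorem result (c : ℝ) (hc : 1 < c) :
    Tendsto
      (fun x : ℝ =>
        (Set.ncard {v : ℕ | (∃ n : ℕ, 0 < n ∧ Nat.totient n = v) ∧ (v : ℝ) ≤ c * x} : ℝ) /
          (Set.ncard {v : ℕ | (∃ n : ℕ, 0 < n ∧ Nat.totient n = v) ∧ (v : ℝ) ≤ x} : ℝ))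
      atTop (𝓝 c) :=
  Vale.Agent.P031.ratio_main Vale.Agent.P031.lower Vale.Agent.P031.pairs c hc

end Vale.Agent.Results.P031.RegularVariation
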